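import Vale.Agent.P365.V4.FlowLoss548b
import Vale.Agent.P365.Z0.IntegFix

/-!
# P365-T2, K-STAT: Wegner with weights, static share for bounded kernels
-/

set_option linter.all false

namespace P365V4.B701

open P365L hiding Wp Wp_im
open P365O P365T1 P365L.TL Matrix Complex MeasureTheory Filter Topology Set
open Vale.Agent.P365.J376 Vale.Agent.P365.Z0
open scoped ComplexConjugate ENNReal

variable {ι : Type*} [Fintype ι] [DecidableEq ι] {A : Matrix ι ι ℝ}
  {Λ : Type*} [Fintype Λ] {p : Λ → ℝ} {ν : Λ → Measure ℝ} {E : ℝ}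
  {κ : Type*} [Fintype κ] {F : κ → ι → ℝ}

/-- Wegner with label dependent weights -/
theorem AvG_mm_le (hA : A.IsSymm) [∀ k, IsProbabilityMeasure (ν k)] (hp : ∀ k, 0 ≤ p k)
    {e g : (ι → Λ) → ι → ℝ} (he : ∀ l x, 0 < e l x) (hg : ∀ l x, 0 ≤ g l x)
    {Dn : Λ → ℝ} (hD0 : ∀ k, 0 ≤ Dn k) (hD : ∀ k, DensLe (Dn k) (ν k)) :
    AvG p ν E e (fun l W => ∑ x, g l x * mm A W x) ≤
      Real.pi * ∑ l : ι → Λ, (∏ x, p (l x)) * ∑ x, g l x * Dn (l x) := by
  unfold AvG
  rw [Finset.mul_sum]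
  refine Finset.sum_le_sum fun l _ => ?_
  have hP : 0 ≤ ∏ x, p (l x) := Finset.prod_nonneg fun x _ => hp _
  rw [mul_left_comm]
  refine mul_le_mul_of_nonneg_left ?_ hP
  have h1 : Ex (fun x => ν (l x)) E (e l) (fun W => ∑ x, g l x * mm A W x) =
      ∑ x, g l x * Ex (fun x => ν (l x)) E (e l) (fun W => mm A W x) := by
    unfold Ex
    rw [integral_finset_sum _ fun x _ => (integrable_mm hA _ E (he l) x).const_mul _]
    exact Finset.sum_congr rfl fun x _ => integral_const_mul _ _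
  rw [h1, Finset.mul_sum]
  refine Finset.sum_le_sum fun x _ => ?_
  have h2 := Ex_mm_le hA (fun x => ν (l x)) (E := E) (he l) x (hD0 (l x)) (hD (l x))
  calc g l x * Ex (fun x => ν (l x)) E (e l) (fun W => mm A W x)
      ≤ g l x * (Real.pi * Dn (l x)) := mul_le_mul_of_nonneg_left h2 (hg l x)
    _ = Real.pi * (g l x * Dn (l x)) := by ring

/-- uniform form: `g l x ≤ b' ` for every label with density `Dn`, `∑ p Dn ≤ D0` -/
theorem AvG_mm_le_card (hA : A.IsSymm) [∀ k, IsProbabilityMeasure (ν k)] (hp : ∀ k, 0 ≤ p k)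
    (hp1 : ∑ k, p k = 1)
    {e g : (ι → Λ) → ι → ℝ} (he : ∀ l x, 0 < e l x) (hg : ∀ l x, 0 ≤ g l x)
    {Dn : Λ → ℝ} (hD0 : ∀ k, 0 ≤ Dn k) (hD : ∀ k, DensLe (Dn k) (ν k))
    {b' D0 : ℝ} (hb' : 0 ≤ b') (hgb : ∀ l x, g l x ≤ b') (hDs : ∑ k, p k * Dn k ≤ D0) :
    AvG p ν E e (fun l W => ∑ x, g l x * mm A W x) ≤
      Real.pi * b' * D0 * (Fintype.card ι : ℝ) := by
  refine (AvG_mm_le hA hp he hg hD0 hD).trans ?_
  have h1 : ∑ l : ι → Λ, (∏ x, p (l x)) * ∑ x, g l x * Dn (l x) ≤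
      ∑ l : ι → Λ, (∏ x, p (l x)) * ∑ x, b' * Dn (l x) := by
    refine Finset.sum_le_sum fun l _ => mul_le_mul_of_nonneg_left
      (Finset.sum_le_sum fun x _ => mul_le_mul_of_nonneg_right (hgb l x) (hD0 _))
      (Finset.prod_nonneg fun x _ => hp _)
  have h2 : ∑ l : ι → Λ, (∏ x, p (l x)) * ∑ x, b' * Dn (l x) =
      b' * ((Fintype.card ι : ℝ) * ∑ k, p k * Dn k) := by
    have h3 : ∀ z : ι, ∑ l : ι → Λ, (∏ x, p (l x)) * Dn (l z) = ∑ k, p k * Dn k :=
      fun z => sum_lab_site hp1 z Dn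
    calc ∑ l : ι → Λ, (∏ x, p (l x)) * ∑ x, b' * Dn (l x)
        = b' * ∑ z : ι, ∑ l : ι → Λ, (∏ x, p (l x)) * Dn (l z) := by
          rw [Finset.sum_comm (s := (Finset.univ : Finset ι)), Finset.mul_sum]
          refine Finset.sum_congr rfl fun l _ => ?_
          rw [← Finset.mul_sum, ← Finset.mul_sum]
          ring
      _ = _ := by
          simp_rw [h3]
          rw [Finset.sum_const, nsmul_eq_mul, Finset.card_univ]
  rw [h2] at h1
  have h4 : b' * ((Fintype.card ι : ℝ) * ∑ k, p k * Dn k) ≤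
      b' * ((Fintype.card ι : ℝ) * D0) :=
    mul_le_mul_of_nonneg_left (mul_le_mul_of_nonneg_left hDs (Nat.cast_nonneg _)) hb'
  have h5 := mul_le_mul_of_nonneg_left (h1.trans h4) Real.pi_pos.le
  refine h5.trans (le_of_eq ?_)
  ring

/-- `∑_k M_x(F k) ≤ R m_x` for a kernel bounded by `R` -/
theorem sum_Mf_le_mm (hA : A.IsSymm) {W : ι → ℂ} (hW : ∀ x, (W x).im < 0) {R : ℝ}
    (hR : ∀ x y, ∑ k, (F k x - F k y) ^ 2 ≤ R) (x : ι) :
    ∑ k, Mf A W (F k) x ≤ R * mm A W x := by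
  have h1 : ∑ k, Mf A W (F k) x =
      ∑ a, (-(W a).im) * KK A W x a * ∑ k, (F k a - F k x) ^ 2 := by
    unfold Mf
    rw [Finset.sum_comm]
    refine Finset.sum_congr rfl fun a _ => ?_
    rw [Finset.mul_sum]
  rw [h1, mm_eq hA hW, Finset.mul_sum]
  refine Finset.sum_le_sum fun a _ => ?_
  rw [mul_comm R]
  exact mul_le_mul_of_nonneg_left (hR a x)
    (mul_nonneg (by linarith [hW a]) (KK_nonneg _ _))

/-- content with weights `g`: `∑_l P ∑_x g_x ∑_k E M_x(F k)` -/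
noncomputable def ShareG (A : Matrix ι ι ℝ) (p : Λ → ℝ) (ν : Λ → Measure ℝ) (E : ℝ)
    (F : κ → ι → ℝ) (e g : (ι → Λ) → ι → ℝ) : ℝ :=
  AvG p ν E e fun l W => ∑ x, g l x * ∑ k, Mf A W (F k) x

theorem integrable_sum_Mf (hA : A.IsSymm) (m : Measure (ι → ℝ)) [IsFiniteMeasure m] (E : ℝ)
    {e : ι → ℝ} (he : ∀ x, 0 < e x) (g : ι → ℝ) :
    Integrable (fun v => ∑ x, g x * ∑ k, Mf A (WV E e v) (F k) x) m :=
  integrable_finset_sum _ fun x _ => (integrable_finset_sum _ fun k _ =>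
    integrable_Mf hA m E he (F k) x).const_mul _

theorem AvG_mono' {e : (ι → Λ) → ι → ℝ} (hp : ∀ k, 0 ≤ p k)
    {G H : (ι → Λ) → (ι → ℂ) → ℝ}
    (hG : ∀ l, Integrable (fun v => G l (WV E (e l) v)) (Measure.pi fun x => ν (l x)))
    (hH : ∀ l, Integrable (fun v => H l (WV E (e l) v)) (Measure.pi fun x => ν (l x)))
    (h : ∀ l v, G l (WV E (e l) v) ≤ H l (WV E (e l) v)) :
    AvG p ν E e G ≤ AvG p ν E e H := by
  unfold AvG Ex
  exact Finset.sum_le_sum fun l _ => mul_le_mul_of_nonneg_left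
    (integral_mono (hG l) (hH l) (h l)) (Finset.prod_nonneg fun x _ => hp _)

theorem ShareG_mono (hA : A.IsSymm) [∀ k, IsProbabilityMeasure (ν k)] (hp : ∀ k, 0 ≤ p k)
    {e g g' : (ι → Λ) → ι → ℝ} (he : ∀ l x, 0 < e l x) (h : ∀ l x, g l x ≤ g' l x) :
    ShareG A p ν E F e g ≤ ShareG A p ν E F e g' :=
  AvG_mono' hp (fun l => integrable_sum_Mf hA _ E (he l) (g l))
    (fun l => integrable_sum_Mf hA _ E (he l) (g' l)) fun l v =>
      Finset.sum_le_sum fun x _ => mul_le_mul_of_nonneg_right (h l x)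
        (Finset.sum_nonneg fun k _ => Mf_nonneg (WV_neg (he l) v) _ _)

theorem ShareG_smul (e g : (ι → Λ) → ι → ℝ) (c : ℝ) :
    ShareG A p ν E F e (fun l x => c * g l x) = c * ShareG A p ν E F e g := by
  unfold ShareG AvG Ex
  rw [Finset.mul_sum]
  refine Finset.sum_congr rfl fun l _ => ?_
  have h1 : ∀ v : ι → ℝ, ∑ x, c * g l x * ∑ k, Mf A (WV E (e l) v) (F k) x =
      c * ∑ x, g l x * ∑ k, Mf A (WV E (e l) v) (F k) x := by
    intro v
    rw [Finset.mul_sum]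
    exact Finset.sum_congr rfl fun x _ => mul_assoc _ _ _
  simp_rw [h1]
  rw [integral_const_mul]
  ring

theorem ShareG_add (hA : A.IsSymm) [∀ k, IsProbabilityMeasure (ν k)]
    {e g g' : (ι → Λ) → ι → ℝ} (he : ∀ l x, 0 < e l x) :
    ShareG A p ν E F e (fun l x => g l x + g' l x) =
      ShareG A p ν E F e g + ShareG A p ν E F e g' := by
  unfold ShareG AvG Ex
  rw [← Finset.sum_add_distrib]
  refine Finset.sum_congr rfl fun l _ => ?_
  rw [← mul_add, ← integral_add (integrable_sum_Mf hA _ E (he l) (g l))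
    (integrable_sum_Mf hA _ E (he l) (g' l))]
  congr 1
  refine integral_congr_ae (Eventually.of_forall fun v => ?_)
  simp only
  rw [← Finset.sum_add_distrib]
  exact Finset.sum_congr rfl fun x _ => add_mul _ _ _

/-- with the profile itself as weight: the functional -/
theorem ShareG_self (hA : A.IsSymm) [∀ k, IsProbabilityMeasure (ν k)]
    {e : (ι → Λ) → ι → ℝ} (he : ∀ l x, 0 < e l x) :
    ShareG A p ν E F e e = PhiG A p ν E F e := by
  unfold ShareG PhiG AvG Ex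
  refine Finset.sum_congr rfl fun l _ => ?_
  congr 1
  refine integral_congr_ae (Eventually.of_forall fun v => ?_)
  simp only
  have h1 : ∀ k, En A (WV E (e l) v) (F k) = ∑ x, e l x * Mf A (WV E (e l) v) (F k) x := by
    intro k
    unfold En Mf
    refine Finset.sum_congr rfl fun x _ => ?_
    rw [Finset.mul_sum]
    refine Finset.sum_congr rfl fun y _ => ?_
    rw [WV_imm, WV_imm]
    ring
  simp_rw [h1]
  rw [Finset.sum_comm]
  exact Finset.sum_congr rfl fun x _ => by rw [Finset.mul_sum]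

/-- **static share, bounded kernel**: `u ≤ θ e` at the movable sites, `u ≤ b'` at the others -/
theorem share_le (hA : A.IsSymm) [∀ k, IsProbabilityMeasure (ν k)] (hp : ∀ k, 0 ≤ p k)
    (hp1 : ∑ k, p k = 1) {e u : (ι → Λ) → ι → ℝ} (he : ∀ l x, 0 < e l x)
    {mov : Λ → Prop} {θ b' D0 R : ℝ} (hθ0 : 0 ≤ θ) (hb' : 0 ≤ b') (hR0 : 0 ≤ R)
    (hθ : ∀ l x, mov (l x) → u l x ≤ θ * e l x)
    (hb : ∀ l x, ¬ mov (l x) → u l x ≤ b')
    {Dn : Λ → ℝ} (hD0 : ∀ k, 0 ≤ Dn k) (hD : ∀ k, DensLe (Dn k) (ν k))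
    (hDs : ∑ k, p k * Dn k ≤ D0) (hR : ∀ x y, ∑ k, (F k x - F k y) ^ 2 ≤ R) :
    ShareG A p ν E F e u ≤ θ * PhiG A p ν E F e +
      Real.pi * b' * D0 * R * (Fintype.card ι : ℝ) := by
  have h1 : ShareG A p ν E F e u ≤ ShareG A p ν E F e (fun l x => θ * e l x + b') := by
    refine ShareG_mono hA hp he fun l x => ?_
    by_cases hm : mov (l x)
    · have := hθ l x hm
      linarith
    · have := hb l x hm
      have := mul_nonneg hθ0 (he l x).le
      linarith
  have h2 : ShareG A p ν E F e (fun l x => θ * e l x + b') =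
      θ * PhiG A p ν E F e + ShareG A p ν E F e (fun _ _ => b') := by
    rw [ShareG_add hA he (g := fun l x => θ * e l x) (g' := fun _ _ => b'), ShareG_smul,
      ShareG_self hA he]
  have h3 : ShareG A p ν E F e (fun _ _ => b') ≤
      AvG p ν E e (fun l W => ∑ x, (R * b') * mm A W x) := by
    refine AvG_mono' hp (fun l => integrable_sum_Mf hA _ E (he l) _) (fun l =>
      integrable_finset_sum _ fun x _ => (integrable_mm hA _ E (he l) x).const_mul _)
      fun l v => Finset.sum_le_sum fun x _ => ?_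
    have h4 := sum_Mf_le_mm (F := F) hA (WV_neg (E := E) (he l) v) hR x
    calc b' * ∑ k, Mf A (WV E (e l) v) (F k) x ≤ b' * (R * mm A (WV E (e l) v) x) :=
          mul_le_mul_of_nonneg_left h4 hb'
      _ = (R * b') * mm A (WV E (e l) v) x := by ring
  have h5 := AvG_mm_le_card (E := E) (ν := ν) (e := e) hA hp hp1 he
    (g := fun _ _ => R * b') (fun _ _ => mul_nonneg hR0 hb') hD0 hD (mul_nonneg hR0 hb')
    (fun _ _ => le_rfl) hDs
  calc ShareG A p ν E F e u ≤ θ * PhiG A p ν E F e + ShareG A p ν E F e (fun _ _ => b') :=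
        h1.trans h2.le
    _ ≤ θ * PhiG A p ν E F e + Real.pi * (R * b') * D0 * (Fintype.card ι : ℝ) :=
        add_le_add le_rfl (h3.trans h5)
    _ = _ := by ring

end P365V4.B701
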