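import Vale.Agent.P365.V4.B701.Weg
import Vale.Agent.P365.T2.H213.Spec
import Vale.Agent.P365.T2.H685.CenMass

/-!
# P365-T2, K-BIND: fields `share` (k4') and `weg` (k5) of `StW.Ok` for the concrete worlds

* `lab_cen` : mass (with density) of the centres of a family;
* `lab_us`  : static part, summed over the labels;
* `lab_us_world` : `∑_l P ∑_x us (i+1) * Dn ≤ 5/lam exp (-(r (i+1))²) N²`;
* `world_EM_us`, `world_share`, `world_weg`.
-/

set_option linter.all false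

namespace P365V4.B701

open P365L hiding Wp Wp_im
open P365O P365T1 P365L.TL P365T1.Conc Matrix Complex MeasureTheory Filter Topology Set
open Vale.Agent.P365.J376 P365T2.SeqG P365T2.ConcG P365V4.Free
open scoped ComplexConjugate ENNReal

section gen

variable {N : ℕ} [NeZero N]

open Classical in
/-- the centres of family `j` with a weight depending on the own label -/
theorem lab_cen {D : V3} {ρ : Measure ℝ} (h : D.Ok ρ) {j : ℕ} (hm : 0 < D.m j)
    (hmN : D.m j ∣ N) {q : ℝ} (hq : ∀ a, D.p (D.pat j a) ≤ q) (x : Tor N) (g : D.Λ → ℝ)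
    (hg : ∀ k, 0 ≤ g k) :
    ∑ l : Tor N → D.Λ, (∏ z, D.p (l z)) * (if D.cen j l x then g (l x) else 0) ≤
      g (D.pat j (D.y j)) * q ^ (D.m j) ^ 2 := by
  have h1 : ∀ l : Tor N → D.Λ, (∏ z, D.p (l z)) * (if D.cen j l x then g (l x) else 0) =
      g (D.pat j (D.y j)) * ((∏ z, D.p (l z)) * (if D.cen j l x then (1 : ℝ) else 0)) := by
    intro l
    by_cases hc : D.cen j l x
    · rw [if_pos hc, if_pos hc, hc.1 x rfl, hc.2]
      ring
    · rw [if_neg hc, if_neg hc]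
      ring
  rw [Finset.sum_congr rfl fun l _ => h1 l, ← Finset.mul_sum]
  exact mul_le_mul_of_nonneg_left (P365T2.H685.cen_mass h hm hmN hq x) (hg _)

open Classical in
theorem wf_le_cen (D : V3) {j : ℕ} (hj : 0 ≤ D.a j) (l : Tor N → D.Λ) (x : Tor N) :
    D.wf j l x ≤ (if D.cen j l x then 1 else 0) + Real.exp (-(D.a j)) := by
  have := Real.exp_pos (-(D.a j))
  unfold V3.wf
  by_cases hc : D.cen j l x
  · rw [if_pos hc, if_pos hc]
    linarith
  · rw [if_neg hc, if_neg hc]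
    split_ifs <;> linarith

open Classical in
/-- **the static part, summed over the labels** -/
theorem lab_us {D : V4 N} {ρ : Measure ℝ} (h : D.Ok ρ) (hm : ∀ j ≤ D.I, 0 < D.m j)
    (hmN : ∀ j ≤ D.I, D.m j ∣ N) {q : ℕ → ℝ} (hq : ∀ j ≤ D.I, ∀ a, D.p (D.pat j a) ≤ q j)
    (i : ℕ) (g : D.Λ → ℝ) (hg : ∀ k, 0 ≤ g k) :
    ∑ l : Tor N → D.Λ, (∏ z, D.p (l z)) * ∑ x, D.us (i + 1) l x * g (l x) ≤
      (D.b' * (∑ k, D.p k * g k) + ∑ j ∈ Finset.Ico (i + 1) (D.I + 1), D.e0 j *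
        (g (D.pat j (D.y j)) * q j ^ (D.m j) ^ 2 + Real.exp (-(D.a j)) * ∑ k, D.p k * g k)) *
        (Fintype.card (Tor N) : ℝ) := by
  set G : ℝ := ∑ k, D.p k * g k with hG
  have hP : ∀ l : Tor N → D.Λ, 0 ≤ ∏ z, D.p (l z) := fun l =>
    Finset.prod_nonneg fun x _ => h.p_nonneg _
  have h1 : ∀ (l : Tor N → D.Λ) (x : Tor N), D.us (i + 1) l x * g (l x) ≤
      D.b' * g (l x) + ∑ j ∈ Finset.Ico (i + 1) (D.I + 1), D.e0 j *
        ((if D.cen j l x then g (l x) else 0) + Real.exp (-(D.a j)) * g (l x)) := by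
    intro l x
    have hgx := hg (l x)
    unfold V4.us
    rw [add_mul, Finset.sum_mul]
    refine add_le_add (mul_le_mul_of_nonneg_right (h.floor_le _ _) hgx)
      (Finset.sum_le_sum fun j hj => ?_)
    rw [Finset.mem_Ico] at hj
    have h2 := wf_le_cen D.toV3 (h.a_nonneg j (by omega)) l x
    have h3 := h.e0_pos j (by omega)
    have h4 : D.wf j l x * g (l x) ≤
        (if D.cen j l x then g (l x) else 0) + Real.exp (-(D.a j)) * g (l x) := by
      refine (mul_le_mul_of_nonneg_right h2 hgx).trans (le_of_eq ?_)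
      split_ifs <;> ring
    calc D.e0 j * D.wf j l x * g (l x) = D.e0 j * (D.wf j l x * g (l x)) := by ring
      _ ≤ _ := mul_le_mul_of_nonneg_left h4 h3.le
  have hs : ∀ z : Tor N, ∑ l : Tor N → D.Λ, (∏ x, D.p (l x)) * g (l z) = G :=
    fun z => Vale.Agent.P365.Z0.sum_lab_site h.p_sum z g
  calc ∑ l : Tor N → D.Λ, (∏ z, D.p (l z)) * ∑ x, D.us (i + 1) l x * g (l x)
      ≤ ∑ l : Tor N → D.Λ, (∏ z, D.p (l z)) * ∑ x, (D.b' * g (l x) +
          ∑ j ∈ Finset.Ico (i + 1) (D.I + 1), D.e0 j *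
          ((if D.cen j l x then g (l x) else 0) + Real.exp (-(D.a j)) * g (l x))) :=
        Finset.sum_le_sum fun l _ => mul_le_mul_of_nonneg_left
          (Finset.sum_le_sum fun x _ => h1 l x) (hP l)
    _ = ∑ x : Tor N, (D.b' * (∑ l : Tor N → D.Λ, (∏ z, D.p (l z)) * g (l x)) +
          ∑ j ∈ Finset.Ico (i + 1) (D.I + 1), D.e0 j *
          ((∑ l : Tor N → D.Λ, (∏ z, D.p (l z)) * (if D.cen j l x then g (l x) else 0)) +
            Real.exp (-(D.a j)) * (∑ l : Tor N → D.Λ, (∏ z, D.p (l z)) * g (l x)))) := by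
        simp_rw [Finset.mul_sum]
        rw [Finset.sum_comm]
        refine Finset.sum_congr rfl fun x _ => ?_
        simp_rw [mul_add, Finset.mul_sum, Finset.sum_add_distrib]
        congr 1
        · exact Finset.sum_congr rfl fun l _ => by ring
        · rw [Finset.sum_comm, ← Finset.sum_add_distrib]
          refine Finset.sum_congr rfl fun j _ => ?_
          rw [← Finset.sum_add_distrib]
          exact Finset.sum_congr rfl fun l _ => by ring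
    _ ≤ ∑ x : Tor N, (D.b' * G + ∑ j ∈ Finset.Ico (i + 1) (D.I + 1), D.e0 j *
        (g (D.pat j (D.y j)) * q j ^ (D.m j) ^ 2 + Real.exp (-(D.a j)) * G)) := by
        refine Finset.sum_le_sum fun x _ => ?_
        simp_rw [hs]
        refine add_le_add le_rfl (Finset.sum_le_sum fun j hj => ?_)
        rw [Finset.mem_Ico] at hj
        refine mul_le_mul_of_nonneg_left (add_le_add ?_ le_rfl) (h.e0_pos j (by omega)).le
        exact lab_cen h.toOk (hm j (by omega)) (hmN j (by omega)) (hq j (by omega)) x g hg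
    _ = _ := by
        rw [Finset.sum_const, nsmul_eq_mul, Finset.card_univ]
        ring

/-- numbers -/
theorem lab_us_num {D : V4 N} {ρ : Measure ℝ} (h : D.Ok ρ) (hm : ∀ j ≤ D.I, 0 < D.m j)
    (hmN : ∀ j ≤ D.I, D.m j ∣ N) {q : ℕ → ℝ} (hq : ∀ j ≤ D.I, ∀ a, D.p (D.pat j a) ≤ q j)
    (i : ℕ) (g : D.Λ → ℝ) (hg : ∀ k, 0 ≤ g k) {G c ε : ℝ} (hG : ∑ k, D.p k * g k ≤ G)
    (hc : 0 ≤ c) (hε : 0 ≤ ε) (hb : D.b' ≤ ε)
    (hqj : ∀ j, i + 1 ≤ j → j ≤ D.I → g (D.pat j (D.y j)) * q j ^ (D.m j) ^ 2 ≤ c * ε)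
    (haj : ∀ j, i + 1 ≤ j → j ≤ D.I → Real.exp (-(D.a j)) ≤ ε)
    (hs : ∑ j ∈ Finset.Ico (i + 1) (D.I + 1), D.e0 j ≤ 1) :
    ∑ l : Tor N → D.Λ, (∏ z, D.p (l z)) * ∑ x, D.us (i + 1) l x * g (l x) ≤
      (2 * G + c) * ε * (Fintype.card (Tor N) : ℝ) := by
  refine (lab_us h hm hmN hq i g hg).trans (mul_le_mul_of_nonneg_right ?_ (Nat.cast_nonneg _))
  have hG0 : 0 ≤ ∑ k, D.p k * g k :=
    Finset.sum_nonneg fun k _ => mul_nonneg (h.p_nonneg k) (hg k)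
  have hG1 : 0 ≤ G := hG0.trans hG
  have h10 : 0 ≤ (c + G) * ε := by positivity
  calc D.b' * (∑ k, D.p k * g k) + ∑ j ∈ Finset.Ico (i + 1) (D.I + 1), D.e0 j *
        (g (D.pat j (D.y j)) * q j ^ (D.m j) ^ 2 + Real.exp (-(D.a j)) * ∑ k, D.p k * g k)
      ≤ ε * G + ∑ j ∈ Finset.Ico (i + 1) (D.I + 1), D.e0 j * ((c + G) * ε) := by
        refine add_le_add (mul_le_mul hb hG hG0 hε) (Finset.sum_le_sum fun j hj => ?_)
        rw [Finset.mem_Ico] at hj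
        refine mul_le_mul_of_nonneg_left ?_ (h.e0_pos j (by omega)).le
        calc g (D.pat j (D.y j)) * q j ^ (D.m j) ^ 2 +
              Real.exp (-(D.a j)) * ∑ k, D.p k * g k
            ≤ c * ε + ε * G := add_le_add (hqj j hj.1 (by omega))
              (mul_le_mul (haj j hj.1 (by omega)) hG hG0 hε)
          _ = (c + G) * ε := by ring
    _ = ε * G + (∑ j ∈ Finset.Ico (i + 1) (D.I + 1), D.e0 j) * ((c + G) * ε) := by
        rw [Finset.sum_mul]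
    _ ≤ ε * G + 1 * ((c + G) * ε) := add_le_add le_rfl (mul_le_mul_of_nonneg_right hs h10)
    _ = (2 * G + c) * ε := by ring

/-- the moving weight, summed over the labels -/
theorem lab_Ws {D : V4 N} {ρ : Measure ℝ} (h : D.Ok ρ) {i : ℕ} (hi : i ≤ D.I) (g : D.Λ → ℝ)
    (hg : ∀ k, 0 ≤ g k) {G : ℝ} (hG : ∑ k, D.p k * g k ≤ G) :
    ∑ l : Tor N → D.Λ, (∏ z, D.p (l z)) * ∑ x, D.Ws (i + 1) l x * g (l x) ≤
      33 * G * (Fintype.card (Tor N) : ℝ) := by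
  have hs : ∀ z : Tor N, ∑ l : Tor N → D.Λ, (∏ x, D.p (l x)) * g (l z) =
      ∑ k, D.p k * g k :=
    fun z => Vale.Agent.P365.Z0.sum_lab_site h.p_sum z _
  calc ∑ l : Tor N → D.Λ, (∏ z, D.p (l z)) * ∑ x, D.Ws (i + 1) l x * g (l x)
      ≤ ∑ l : Tor N → D.Λ, (∏ z, D.p (l z)) * ∑ x, 33 * g (l x) :=
        Finset.sum_le_sum fun l _ => mul_le_mul_of_nonneg_left
          (Finset.sum_le_sum fun x _ => mul_le_mul_of_nonneg_right
            (h.toOk.Ws_le (by omega) l x) (hg _))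
          (Finset.prod_nonneg fun x _ => h.p_nonneg _)
    _ = 33 * ∑ x : Tor N, ∑ l : Tor N → D.Λ, (∏ z, D.p (l z)) * g (l x) := by
        simp_rw [Finset.mul_sum]
        rw [Finset.sum_comm]
        exact Finset.sum_congr rfl fun x _ => Finset.sum_congr rfl fun l _ => by ring
    _ = 33 * ((Fintype.card (Tor N) : ℝ) * ∑ k, D.p k * g k) := by
        simp_rw [hs]
        rw [Finset.sum_const, nsmul_eq_mul, Finset.card_univ]
    _ ≤ 33 * ((Fintype.card (Tor N) : ℝ) * G) := by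
        refine mul_le_mul_of_nonneg_left (mul_le_mul_of_nonneg_left hG (by positivity))
          (by norm_num)
    _ = 33 * G * (Fintype.card (Tor N) : ℝ) := by ring

theorem eT_posD {D : V4 N} {ρ : Measure ℝ} (h : D.Ok ρ) {i : ℕ} (hi : i ≤ D.I) (τ : ℝ)
    (l : Tor N → D.Λ) (x : Tor N) : 0 < eT (D.us (i + 1)) (D.Ws (i + 1)) τ l x := by
  have h1 := h.us_ge (i + 1) l x
  have h2 := h.b_pos
  have h3 := h.toOk.Ws_nonneg (show i + 1 ≤ D.I + 1 by omega) l x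
  have h4 := mul_nonneg (Real.exp_pos (-τ)).le h3
  unfold eT
  linarith

open P365T2.H213

/-- (k4'), generic -/
theorem EM_u_le {D : V4 N} {ρ : Measure ℝ} (h : D.Ok ρ) (E : ℝ) {i : ℕ} (hi : i ≤ D.I)
    (S τ : ℝ) {g : D.Λ → ℝ} (hg : ∀ k, 0 ≤ g k) (hD : ∀ k, DensLe (g k) (D.ν k)) {B : ℝ}
    (hB : ∑ l : Tor N → D.Λ, (∏ z, D.p (l z)) * ∑ x, D.us (i + 1) l x * g (l x) ≤ B) :
    (stOf D i S).EM E (stOf D i S).u τ ≤ Real.pi * B := by
  haveI := h.prob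
  exact (AvG_mm_le (A := AT N) (p := D.p) (ν := D.ν) (E := E) (AT_symm N) h.p_nonneg
    (e := eT (D.us (i + 1)) (D.Ws (i + 1)) τ) (g := D.us (i + 1))
    (fun l x => eT_posD h hi τ l x) (fun l x => h.us_nonneg (i + 1) l x)
    (Dn := g) hg hD).trans (mul_le_mul_of_nonneg_left hB Real.pi_pos.le)

/-- (k5), generic -/
theorem EM_e_le {D : V4 N} {ρ : Measure ℝ} (h : D.Ok ρ) (E : ℝ) {i : ℕ} (hi : i ≤ D.I)
    (S τ : ℝ) {g : D.Λ → ℝ} (hg : ∀ k, 0 ≤ g k) (hD : ∀ k, DensLe (g k) (D.ν k)) {B B' : ℝ}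
    (hB : ∑ l : Tor N → D.Λ, (∏ z, D.p (l z)) * ∑ x, D.us (i + 1) l x * g (l x) ≤ B)
    (hB' : ∑ l : Tor N → D.Λ, (∏ z, D.p (l z)) * ∑ x, D.Ws (i + 1) l x * g (l x) ≤ B') :
    (stOf D i S).EM E (eT (stOf D i S).u (stOf D i S).w τ) τ ≤
      Real.pi * (B + Real.exp (-τ) * B') := by
  haveI := h.prob
  refine (AvG_mm_le (A := AT N) (p := D.p) (ν := D.ν) (E := E) (AT_symm N) h.p_nonneg
    (e := eT (D.us (i + 1)) (D.Ws (i + 1)) τ) (g := eT (D.us (i + 1)) (D.Ws (i + 1)) τ)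
    (fun l x => eT_posD h hi τ l x) (fun l x => (eT_posD h hi τ l x).le)
    (Dn := g) hg hD).trans (mul_le_mul_of_nonneg_left ?_ Real.pi_pos.le)
  have h4 : ∑ l : Tor N → D.Λ, (∏ x, D.p (l x)) *
      ∑ x, eT (D.us (i + 1)) (D.Ws (i + 1)) τ l x * g (l x) =
      (∑ l : Tor N → D.Λ, (∏ x, D.p (l x)) * ∑ x, D.us (i + 1) l x * g (l x)) +
      Real.exp (-τ) * ∑ l : Tor N → D.Λ, (∏ x, D.p (l x)) *
        ∑ x, D.Ws (i + 1) l x * g (l x) := by
    rw [Finset.mul_sum, ← Finset.sum_add_distrib]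
    refine Finset.sum_congr rfl fun l _ => ?_
    have h5 : ∑ x, eT (D.us (i + 1)) (D.Ws (i + 1)) τ l x * g (l x) =
        ∑ x, D.us (i + 1) l x * g (l x) + Real.exp (-τ) * ∑ x, D.Ws (i + 1) l x * g (l x) := by
      rw [Finset.mul_sum, ← Finset.sum_add_distrib]
      exact Finset.sum_congr rfl fun x _ => by unfold eT; ring
    rw [h5]
    ring
  rw [h4]
  exact add_le_add hB (mul_le_mul_of_nonneg_left hB' (Real.exp_pos _).le)

end gen

section world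

open P365T2.H213

local instance fact8 : Fact (2 ≤ 8) := ⟨by norm_num⟩

variable {lam : ℝ} {yf : ℕ → ℤ × ℤ} {Vsf : ℕ → ℤ × ℤ → ℝ} {rs I N : ℕ} [NeZero N] {b : ℝ}

theorem card_torN (N : ℕ) [NeZero N] : (Fintype.card (Tor N) : ℝ) = (N : ℝ) ^ 2 := by
  rw [card_Tor_nat]
  push_cast
  ring

/-- mass and density at the centre -/
theorem qj_world (hrs : 2 ≤ rs) (hadm : AdmS 8 lam yf Vsf rs I) {j : ℕ} (hj : j ≤ I) :
    DS 8 lam yf rs I ((PP 8 yf rs I).pat j ((PP 8 yf rs I).y j)) *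
      Real.exp (-(3 * (rr 8 rs j : ℝ))) ^ (8 * rr 8 rs j) ^ 2 ≤
      1 / lam * Real.exp (-((rr 8 rs j : ℝ) ^ 2)) := by
  have hlam := hadm.hlam
  have hr : (2 : ℝ) ≤ rr 8 rs j := two_le_cast_rr hrs j
  obtain ⟨n, hn⟩ : ∃ n, (8 * rr 8 rs j) ^ 2 = n + 1 := by
    have : 0 < rr 8 rs j := by
      have : (0 : ℝ) < rr 8 rs j := by linarith
      exact_mod_cast this
    exact ⟨(8 * rr 8 rs j) ^ 2 - 1, by
      have : 0 < (8 * rr 8 rs j) ^ 2 := by positivity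
      omega⟩
  have hn' : (n : ℝ) = 64 * (rr 8 rs j : ℝ) ^ 2 - 1 := by
    have : ((8 * (rr 8 rs j : ℝ)) ^ 2) = n + 1 := by exact_mod_cast hn
    nlinarith
  rw [hn, pow_succ]
  have h3 := P365T2.ConcG.pS_mul_DS_le hadm ((PP 8 yf rs I).pat j ((PP 8 yf rs I).y j))
  rw [P365T2.ConcG.pS_pat hj] at h3
  have h4 : Real.exp (-(3 * (rr 8 rs j : ℝ))) ^ n ≤ Real.exp (-((rr 8 rs j : ℝ) ^ 2)) := by
    rw [← Real.exp_nat_mul]
    refine Real.exp_le_exp.2 ?_
    rw [hn']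
    nlinarith [sq_nonneg ((rr 8 rs j : ℝ)), mul_nonneg (sq_nonneg (rr 8 rs j : ℝ))
      (show (0 : ℝ) ≤ rr 8 rs j by linarith)]
  have h5 : 0 ≤ 1 / lam := by positivity
  calc DS 8 lam yf rs I ((PP 8 yf rs I).pat j ((PP 8 yf rs I).y j)) *
        (Real.exp (-(3 * (rr 8 rs j : ℝ))) ^ n * Real.exp (-(3 * (rr 8 rs j : ℝ))))
      = (Real.exp (-(3 * (rr 8 rs j : ℝ))) *
          DS 8 lam yf rs I ((PP 8 yf rs I).pat j ((PP 8 yf rs I).y j))) *
          Real.exp (-(3 * (rr 8 rs j : ℝ))) ^ n := by ring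
    _ ≤ 1 / lam * Real.exp (-((rr 8 rs j : ℝ) ^ 2)) :=
        mul_le_mul h3 h4 (by positivity) h5

theorem sq_le_succ (hrs : 2 ≤ rs) (i : ℕ) : (rr 8 rs i : ℝ) ^ 2 ≤ rr 8 rs (i + 1) := by
  have hr : (2 : ℝ) ≤ rr 8 rs i := two_le_cast_rr hrs i
  rw [rr_succ_cast]
  exact pow_le_pow_right₀ (by linarith) (by norm_num)

/-- the static part at stage `i + 1`, summed over the labels -/
theorem lab_us_world (hrs : 2 ≤ rs) (hadm : AdmS 8 lam yf Vsf rs I)
    (hfl : FlOk yf rs I N b (fun _ _ => b) b)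
    (hW : (World lam yf Vsf rs I N b (fun _ _ => b) b).Ok (nuL lam)) {i : ℕ} (hi : i + 2 ≤ I) :
    ∑ l : Tor N → (World lam yf Vsf rs I N b (fun _ _ => b) b).Λ,
      (∏ z, (World lam yf Vsf rs I N b (fun _ _ => b) b).p (l z)) * ∑ x,
        (World lam yf Vsf rs I N b (fun _ _ => b) b).us (i + 1) l x * DS 8 lam yf rs I (l x) ≤
      (2 * (2 / lam) + 1 / lam) * Real.exp (-((rr 8 rs (i + 1) : ℝ) ^ 2)) *
        (Fintype.card (Tor N) : ℝ) := by
  have hlam := hadm.hlam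
  have hε0 : 0 < Real.exp (-((rr 8 rs (i + 1) : ℝ) ^ 2)) := Real.exp_pos _
  have hmono : ∀ j, i + 1 ≤ j → (rr 8 rs (i + 1) : ℝ) ≤ rr 8 rs j := fun j hj => by
    exact_mod_cast rr_mono (β := 8) (show 1 ≤ rs by omega) hj
  have h2 : (2 : ℝ) ≤ rr 8 rs (i + 1) := two_le_cast_rr hrs (i + 1)
  have h7 : ∀ j, i + 1 ≤ j → Real.exp (-((rr 8 rs j : ℝ) ^ 2)) ≤
      Real.exp (-((rr 8 rs (i + 1) : ℝ) ^ 2)) := by
    intro j hj
    refine Real.exp_le_exp.2 ?_
    have := pow_le_pow_left₀ (show (0 : ℝ) ≤ rr 8 rs (i + 1) by linarith) (hmono j hj) 2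
    linarith
  refine lab_us_num (D := World lam yf Vsf rs I N b (fun _ _ => b) b)
    (q := fun j => Real.exp (-(3 * (rr 8 rs j : ℝ)))) hW
    (fun j _ => mS_pos (β := 8) (by omega) j) (fun j hj => hfl.dvd j hj)
    (fun j hj a => (P365T2.ConcG.pS_pat hj a).le) i
    (DS 8 lam yf rs I) (fun k => (P365T2.ConcG.DS_pos hadm k).le)
    (P365T2.ConcG.sum_pS_DS hadm) (by positivity) hε0.le ?_ ?_ ?_ ?_
  · refine (show b ≤ e0S 8 rs I from hfl.b'_le).trans ?_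
    unfold e0S
    refine Real.exp_le_exp.2 ?_
    have h3 := sq_le_succ hrs (i + 1)
    have h4 : (rr 8 rs (i + 1 + 1) : ℝ) ≤ rr 8 rs I := by
      exact_mod_cast rr_mono (β := 8) (show 1 ≤ rs by omega) (show i + 1 + 1 ≤ I by omega)
    linarith
  · intro j hj hjI
    exact (qj_world hrs hadm hjI).trans (mul_le_mul_of_nonneg_left (h7 j hj) (by positivity))
  · intro j hj hjI
    refine le_trans ?_ (h7 j hj)
    refine Real.exp_le_exp.2 ?_
    have h6 := hmono j hj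
    have : (rr 8 rs j : ℝ) ^ 2 ≤ (rr 8 rs j : ℝ) ^ 5 :=
      pow_le_pow_right₀ (by linarith) (by norm_num)
    exact neg_le_neg this
  · have h3 := sum_e0S_floor' (β := 8) (rs := rs) (I := I) hrs (show i ≤ I by omega)
    have h4 := e0S_le_one (β := 8) rs i
    have h5 := e0S_pos (β := 8) rs I
    have h6 : ∑ j ∈ Finset.Ico (i + 1) (I + 1), e0S 8 rs j ≤ 1 := by linarith
    exact h6

variable {E : ℝ}

/-- **(k4'), number**: `EM us (i+1) ≤ 5π/lam exp (-(r (i+1))²) N²` -/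
theorem world_EM_us (hrs : 2 ≤ rs) (hadm : AdmS 8 lam yf Vsf rs I)
    (hfl : FlOk yf rs I N b (fun _ _ => b) b)
    (hW : (World lam yf Vsf rs I N b (fun _ _ => b) b).Ok (nuL lam)) {i : ℕ} (hi : i + 2 ≤ I)
    (S τ : ℝ) :
    (stOf (World lam yf Vsf rs I N b (fun _ _ => b) b) i S).EM E
        (stOf (World lam yf Vsf rs I N b (fun _ _ => b) b) i S).u τ ≤
      5 * Real.pi / lam * Real.exp (-((rr 8 rs (i + 1) : ℝ) ^ 2)) * (N : ℝ) ^ 2 := by
  have h2 := lab_us_world hrs hadm hfl hW hi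
  have h1 := EM_u_le hW E (i := i) (show i ≤ I by omega) S τ
    (fun k => (P365T2.ConcG.DS_pos hadm k).le) (fun k => P365T2.ConcG.nuD_densLe hadm k) h2
  refine h1.trans (le_of_eq ?_)
  rw [card_torN]
  ring

/-- **(k5)**: `weg` with `C1 = 71π/lam` -/
theorem world_weg (hrs : 2 ≤ rs) (hadm : AdmS 8 lam yf Vsf rs I)
    (hfl : FlOk yf rs I N b (fun _ _ => b) b)
    (hW : (World lam yf Vsf rs I N b (fun _ _ => b) b).Ok (nuL lam)) {i : ℕ} (hi : i + 2 ≤ I)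
    {S τ : ℝ} (hτ : τ ≤ Sgood rs i) :
    (stOf (World lam yf Vsf rs I N b (fun _ _ => b) b) i S).EM E
        (eT (stOf (World lam yf Vsf rs I N b (fun _ _ => b) b) i S).u
          (stOf (World lam yf Vsf rs I N b (fun _ _ => b) b) i S).w τ) τ ≤
      71 * Real.pi / lam * Real.exp (-τ) * (N : ℝ) ^ 2 := by
  have hlam := hadm.hlam
  have h2 := lab_us_world hrs hadm hfl hW hi
  have h3 := lab_Ws hW (i := i) (show i ≤ I by omega) (DS 8 lam yf rs I)
    (fun k => (P365T2.ConcG.DS_pos hadm k).le) (P365T2.ConcG.sum_pS_DS hadm)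
  have h1 := EM_e_le hW E (i := i) (show i ≤ I by omega) S τ
    (fun k => (P365T2.ConcG.DS_pos hadm k).le) (fun k => P365T2.ConcG.nuD_densLe hadm k) h2 h3
  refine h1.trans ?_
  have hτ' : Real.exp (-((rr 8 rs (i + 1) : ℝ) ^ 2)) ≤ Real.exp (-τ) := by
    refine Real.exp_le_exp.2 ?_
    have h2 : (2 : ℝ) ≤ rr 8 rs (i + 1) := two_le_cast_rr hrs (i + 1)
    have h3 : (0 : ℝ) ≤ rr 8 rs i := Nat.cast_nonneg _
    unfold Sgood at hτ
    nlinarith
  rw [card_torN]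
  have h5 : (2 * (2 / lam) + 1 / lam) * Real.exp (-((rr 8 rs (i + 1) : ℝ) ^ 2)) * (N : ℝ) ^ 2 ≤
      (2 * (2 / lam) + 1 / lam) * Real.exp (-τ) * (N : ℝ) ^ 2 := by
    refine mul_le_mul_of_nonneg_right (mul_le_mul_of_nonneg_left hτ' (by positivity))
      (by positivity)
  refine (mul_le_mul_of_nonneg_left (add_le_add h5 le_rfl) Real.pi_pos.le).trans (le_of_eq ?_)
  ring

/-- choice of the first stage for (k4') -/
theorem exists_share (hrs : 2 ≤ rs) (c : ℝ) {η : ℝ} (hη : 0 < η) :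
    ∃ i₀ : ℕ, ∀ i, i₀ ≤ i → c * Real.exp (-((rr 8 rs (i + 1) : ℝ) ^ 2)) ≤
      Real.exp (-(Sgood rs i / η)) := by
  obtain ⟨n, hn⟩ := exists_nat_ge (1 / η + |c|)
  refine ⟨n, fun i hi => ?_⟩
  have h1 : (n : ℝ) ≤ rr 8 rs (i + 1) := by
    have h2 := lt_rr (β := 8) hrs (i + 1)
    have : n ≤ rr 8 rs (i + 1) := by omega
    exact_mod_cast this
  have h2 : (2 : ℝ) ≤ rr 8 rs (i + 1) := two_le_cast_rr hrs (i + 1)
  have h3 : (0 : ℝ) ≤ rr 8 rs i := Nat.cast_nonneg _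
  have h4 : c ≤ Real.exp (|c|) := by
    have := Real.add_one_le_exp (|c|)
    have := le_abs_self c
    linarith
  have h5 : 1 / η + |c| ≤ rr 8 rs (i + 1) := hn.trans h1
  calc c * Real.exp (-((rr 8 rs (i + 1) : ℝ) ^ 2))
      ≤ Real.exp (|c|) * Real.exp (-((rr 8 rs (i + 1) : ℝ) ^ 2)) :=
        mul_le_mul_of_nonneg_right h4 (Real.exp_pos _).le
    _ = Real.exp (|c| + -((rr 8 rs (i + 1) : ℝ) ^ 2)) := (Real.exp_add _ _).symm
    _ ≤ Real.exp (-(Sgood rs i / η)) := by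
        refine Real.exp_le_exp.2 ?_
        have h6 : Sgood rs i / η ≤ rr 8 rs (i + 1) * (1 / η) := by
          rw [mul_one_div]
          refine div_le_div_of_nonneg_right ?_ hη.le
          unfold Sgood
          linarith
        have h7 : rr 8 rs (i + 1) * (1 / η + |c|) ≤ (rr 8 rs (i + 1) : ℝ) * rr 8 rs (i + 1) :=
          mul_le_mul_of_nonneg_left h5 (by linarith)
        have h8 : |c| ≤ rr 8 rs (i + 1) * |c| := by
          have := abs_nonneg c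
          nlinarith
        nlinarith

/-- **(k4')**: field `share` of `StW.Ok` -/
theorem world_share (lam : ℝ) {rs : ℕ} (hrs : 2 ≤ rs) {η : ℝ} (hη : 0 < η) :
    ∃ i₀ : ℕ, ∀ i, i₀ ≤ i → ∀ I, i + 2 ≤ I → ∀ (E : ℝ) (yf : ℕ → ℤ × ℤ)
      (Vsf : ℕ → ℤ × ℤ → ℝ) (N : ℕ) [NeZero N] (b : ℝ), AdmS 8 lam yf Vsf rs I →
      FlOk yf rs I N b (fun _ _ => b) b →
      (World lam yf Vsf rs I N b (fun _ _ => b) b).Ok (nuL lam) → ∀ τ : ℝ,
      (stOf (World lam yf Vsf rs I N b (fun _ _ => b) b) i (Sgood rs i)).EM E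
        (stOf (World lam yf Vsf rs I N b (fun _ _ => b) b) i (Sgood rs i)).u τ ≤
      Real.exp (-((stOf (World lam yf Vsf rs I N b (fun _ _ => b) b) i (Sgood rs i)).S / η)) *
        (N : ℝ) ^ 2 := by
  obtain ⟨i₀, h0⟩ := exists_share hrs (5 * Real.pi / lam) hη
  refine ⟨i₀, fun i hi I hI E yf Vsf N _ b hadm hfl hW τ => ?_⟩
  exact (world_EM_us hrs hadm hfl hW hI (Sgood rs i) τ).trans
    (mul_le_mul_of_nonneg_right (h0 i hi) (by positivity))

end world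

end P365V4.B701
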